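import Crest.Agent.N067.A.DVar

/-!
# Row 67, BAD (helper16): the numerical part
-/

set_option autoImplicit false

open Topology Filter Set

namespace Crest.Agent.N067.Bd

theorem poly_le (k : ℝ) {ε : ℝ} (hε : 0 < ε) : ∃ C : ℝ, 1 ≤ C ∧ ∀ s : ℝ, 0 ≤ s →
    (1 + s) ^ k ≤ C * Real.exp (ε * s) := by
  obtain ⟨δ, δ0, hδ⟩ : ∃ δ : ℝ, 0 < δ ∧ |k| * δ ≤ ε :=
    ⟨ε / (|k| + 1), by positivity, by
      rw [← mul_div_assoc, div_le_iff₀ (by positivity)]; nlinarith⟩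
  refine ⟨Real.exp (ε + |k| * |Real.log δ|), Real.one_le_exp (by positivity), fun s hs => ?_⟩
  have h0 : 0 < 1 + s := by linarith
  rw [Real.rpow_def_of_pos h0, ← Real.exp_add, Real.exp_le_exp]
  have h1 := Real.log_le_sub_one_of_pos (mul_pos δ0 h0)
  rw [Real.log_mul δ0.ne' h0.ne'] at h1
  have h2 : 0 ≤ Real.log (1 + s) := Real.log_nonneg (by linarith)
  have h3 := mul_le_mul_of_nonneg_left (le_abs_self k) h2
  have h4 := mul_le_mul_of_nonneg_right (show Real.log (1 + s) ≤ δ * (1 + s) + |Real.log δ| by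
    linarith [neg_abs_le (Real.log δ)]) (abs_nonneg k)
  nlinarith [mul_le_mul_of_nonneg_right hδ h0.le]

theorem F_le {f Y : ℝ} (hf : 0 < f) (hY : 0 < Y) :
    f ^ 3 * (Y ^ (5 / 2 : ℝ) / √(1 + f ^ 2 * Y)) ≤ f ^ 2 * Y ^ 2 ∧
      Y ^ (5 / 2 : ℝ) / √(1 + f ^ 2 * Y) ≤ Y ^ (5 / 2 : ℝ) := by
  refine ⟨?_, div_le_self (by positivity) (Real.one_le_sqrt.2 (by nlinarith [sq_nonneg f]))⟩
  have h1 : Y ^ (5 / 2 : ℝ) = Y ^ 2 * √Y := by
    rw [Real.sqrt_eq_rpow, ← Real.rpow_two, ← Real.rpow_add hY]; norm_num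
  have h2 : f * √Y ≤ √(1 + f ^ 2 * Y) := Real.le_sqrt_of_sq_le (by
    rw [mul_pow, Real.sq_sqrt hY.le]; linarith)
  rw [h1, ← mul_div_assoc, div_le_iff₀ (by positivity)]
  nlinarith [mul_le_mul_of_nonneg_left h2 (show 0 ≤ f ^ 2 * Y ^ 2 by positivity)]

theorem num {K l c ε C σ : ℝ} (hl : 0 < l) (hε : 0 < ε) (hε1 : ε ≤ 1) (hC : 1 ≤ C)
    (hσ : 0 < σ) (g1 : 2 * √2 + 3 * ε ≤ 2 * c) (g2 : 2 * √2 + 2 * l * (1 + 3 * ε) + 4 * ε ≤ 5 / 2 * c) :
    ∀ᶠ f : ℝ in atTop, ∀ Z ζ r R Y : ℝ, 0 ≤ Z → 0 ≤ R → 1 ≤ r → r ≤ 1 + (1 + 3 * ε) * R → 0 < Y →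
      Y ≤ C * Real.exp (-(c * R)) → Z * Real.exp (-(l * r)) ≤ K * ζ →
      (r ≤ f → Z * (f / r) ^ (101 / 100 : ℝ) ≤ K * ζ) →
      Z ^ 2 * f ^ 3 * (Y ^ (5 / 2 : ℝ) / √(1 + f ^ 2 * Y)) * Real.exp ((2 * √2 + 2 * ε) * R) ≤
        σ * ζ ^ 2 := by
  obtain ⟨A, hA1, hA⟩ := poly_le 3 hε
  have t1 : Tendsto (fun f : ℝ => f ^ (-(1 / 50 : ℝ)) * (64 * A * C ^ 2 * K ^ 2)) atTop (𝓝 0) := by
    simpa using (tendsto_rpow_neg_atTop (y := 1 / 50) (by norm_num)).mul_const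
      (64 * A * C ^ 2 * K ^ 2)
  have t2 : Tendsto (fun f : ℝ => Real.exp (-(ε / 4 * f)) *
      (Real.exp (ε / 4) * (64 * A * C ^ 3 * K ^ 2 * Real.exp (2 * l)))) atTop (𝓝 0) := by
    simpa using (Real.tendsto_exp_neg_atTop_nhds_zero.comp
      (tendsto_id.const_mul_atTop (show 0 < ε / 4 by positivity))).mul_const
      (Real.exp (ε / 4) * (64 * A * C ^ 3 * K ^ 2 * Real.exp (2 * l)))
  filter_upwards [t1.eventually_lt_const hσ, t2.eventually_lt_const hσ, eventually_gt_atTop 0]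
    with f k1 k2 hf Z ζ r R Y hZ hR r1 r2 hY h1 h2 h3
  have r0 : 0 < r := by linarith
  have r3 : r ≤ 1 + 4 * R := by nlinarith
  have r4 : r ^ 3 ≤ 64 * (A * Real.exp (ε * R)) := by
    have := hA R hR
    rw [show (3 : ℝ) = ((3 : ℕ) : ℝ) by norm_num, Real.rpow_natCast] at this
    calc r ^ 3 ≤ (4 * (1 + R)) ^ 3 := by gcongr; linarith
      _ ≤ _ := by rw [mul_pow]; linarith
  obtain ⟨F1, F2⟩ := F_le hf hY
  have E0 := Real.exp_pos ((2 * √2 + 2 * ε) * R)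
  rcases le_total r f with h | h
  · have a1 := pow_le_pow_left₀ (by positivity) (h3 h) 2
    have a2 : f ^ 2 ≤ ((f / r) ^ (101 / 100 : ℝ)) ^ 2 * r ^ 3 * f ^ (-(1 / 50 : ℝ)) := by
      have b1 : r ^ (101 / 50 : ℝ) ≤ r ^ 3 := by
        rw [← Real.rpow_natCast]
        exact Real.rpow_le_rpow_of_exponent_le r1 (by norm_num)
      have b2 : f ^ 2 = f ^ (101 / 50 : ℝ) * f ^ (-(1 / 50 : ℝ)) := by
        rw [← Real.rpow_add hf, ← Real.rpow_two]; norm_num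
      rw [← Real.rpow_natCast _ 2, ← Real.rpow_natCast _ 2, ← Real.rpow_mul (by positivity),
        Real.div_rpow hf.le r0.le, Real.rpow_natCast, b2,
        show (101 / 100 : ℝ) * (2 : ℕ) = 101 / 50 by norm_num]
      refine mul_le_mul_of_nonneg_right ?_ (by positivity)
      rw [div_mul_eq_mul_div, le_div_iff₀ (by positivity)]
      gcongr
    have a3 : Y ^ 2 * Real.exp ((2 * √2 + 2 * ε) * R) * Real.exp (ε * R) ≤ C ^ 2 := by
      calc _ ≤ (C * Real.exp (-(c * R))) ^ 2 * Real.exp ((2 * √2 + 2 * ε) * R) *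
            Real.exp (ε * R) := by gcongr
        _ = C ^ 2 * Real.exp (-((2 * c - (2 * √2 + 3 * ε)) * R)) := by
            rw [mul_pow, ← Real.exp_nat_mul, mul_assoc, mul_assoc, ← Real.exp_add, ← Real.exp_add]
            congr 2; push_cast; ring
        _ ≤ _ := mul_le_of_le_one_right (by positivity)
            (Real.exp_le_one_iff.2 (neg_nonpos.2 (mul_nonneg (by linarith) hR)))
    calc _ = Z ^ 2 * (f ^ 3 * (Y ^ (5 / 2 : ℝ) / √(1 + f ^ 2 * Y))) *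
          Real.exp ((2 * √2 + 2 * ε) * R) := by ring
      _ ≤ Z ^ 2 * (((f / r) ^ (101 / 100 : ℝ)) ^ 2 * (64 * (A * Real.exp (ε * R))) *
          f ^ (-(1 / 50 : ℝ)) * Y ^ 2) * Real.exp ((2 * √2 + 2 * ε) * R) := by
          refine mul_le_mul_of_nonneg_right (mul_le_mul_of_nonneg_left
            (F1.trans (mul_le_mul_of_nonneg_right (a2.trans ?_) (sq_nonneg _))) (sq_nonneg _)) E0.le
          gcongr
      _ = (Z * (f / r) ^ (101 / 100 : ℝ)) ^ 2 * (f ^ (-(1 / 50 : ℝ)) * (64 * A)) *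
          (Y ^ 2 * Real.exp ((2 * √2 + 2 * ε) * R) * Real.exp (ε * R)) := by ring
      _ ≤ (K * ζ) ^ 2 * (f ^ (-(1 / 50 : ℝ)) * (64 * A)) * C ^ 2 := by gcongr
      _ = f ^ (-(1 / 50 : ℝ)) * (64 * A * C ^ 2 * K ^ 2) * ζ ^ 2 := by ring
      _ ≤ _ := mul_le_mul_of_nonneg_right k1.le (sq_nonneg _)
  · have a1 : Z ^ 2 ≤ (K * ζ) ^ 2 * Real.exp (2 * l * (1 + (1 + 3 * ε) * R)) := by
      have b1 := pow_le_pow_left₀ (by positivity) h2 2
      rw [mul_pow, ← Real.exp_nat_mul, mul_neg, Real.exp_neg, ← div_eq_mul_inv,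
        div_le_iff₀ (Real.exp_pos _)] at b1
      refine b1.trans (mul_le_mul_of_nonneg_left (Real.exp_le_exp.2 ?_) (sq_nonneg _))
      push_cast
      nlinarith
    have a2 : Y ^ (5 / 2 : ℝ) ≤ C ^ 3 * Real.exp (-(5 / 2 * c * R)) := by
      refine (Real.rpow_le_rpow hY.le h1 (by norm_num)).trans ?_
      rw [Real.mul_rpow (by linarith) (Real.exp_pos _).le, ← Real.exp_mul]
      refine mul_le_mul ?_ (le_of_eq (by congr 1; ring)) (Real.exp_pos _).le (by positivity)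
      rw [← Real.rpow_natCast]
      exact Real.rpow_le_rpow_of_exponent_le hC (by norm_num)
    have a3 : f ^ 3 ≤ 64 * (A * Real.exp (ε * R)) := le_trans (by gcongr) r4
    have a4 : Real.exp (2 * l * (1 + (1 + 3 * ε) * R)) * Real.exp (ε * R) *
        Real.exp (-(5 / 2 * c * R)) * Real.exp ((2 * √2 + 2 * ε) * R) ≤
        Real.exp (-(ε / 4 * f)) * Real.exp (ε / 4) * Real.exp (2 * l) := by
      simp only [← Real.exp_add, Real.exp_le_exp]
      nlinarith [mul_le_mul_of_nonneg_right g2 hR, mul_le_mul_of_nonneg_left (h.trans r3) hε.le]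
    calc _ ≤ (K * ζ) ^ 2 * Real.exp (2 * l * (1 + (1 + 3 * ε) * R)) *
          (64 * (A * Real.exp (ε * R))) * (C ^ 3 * Real.exp (-(5 / 2 * c * R))) *
          Real.exp ((2 * √2 + 2 * ε) * R) := by
          have := F2.trans a2
          gcongr
      _ = 64 * A * C ^ 3 * K ^ 2 * ζ ^ 2 * (Real.exp (2 * l * (1 + (1 + 3 * ε) * R)) *
          Real.exp (ε * R) * Real.exp (-(5 / 2 * c * R)) * Real.exp ((2 * √2 + 2 * ε) * R)) := by
          ring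
      _ ≤ 64 * A * C ^ 3 * K ^ 2 * ζ ^ 2 *
          (Real.exp (-(ε / 4 * f)) * Real.exp (ε / 4) * Real.exp (2 * l)) := by gcongr
      _ = Real.exp (-(ε / 4 * f)) *
          (Real.exp (ε / 4) * (64 * A * C ^ 3 * K ^ 2 * Real.exp (2 * l))) * ζ ^ 2 := by ring
      _ ≤ _ := mul_le_mul_of_nonneg_right k2.le (sq_nonneg _)

end Crest.Agent.N067.Bd
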