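import Crest.Agent.N067.B.Patch
import Crest.Agent.N067.B.Num
import Crest.Agent.N067.M.Bas
import Crest.Agent.N067.M.FL

/-!
# Row 67, BAD (helper16): cores and ridges are paid by `t Z²` on the band
-/

set_option autoImplicit false
set_option linter.dupNamespace false

open MeasureTheory Laplacian InnerProductSpace Topology Filter Set Metric
open scoped RealInnerProductSpace Gradient ContDiff

namespace Crest.Agent.N067

open Crest.Agent.R077 Crest.Agent.N067.Y Crest.Agent.N067.M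

noncomputable section

variable {n : ℕ}

/-- both sides -/
theorem Bd.both (hn : 2 ≤ n) {ε τ : ℝ} (hε : 0 < ε) (hε1 : ε ≤ 1) (hτ : 0 < τ) :
    ∃ r0 R0 C : ℝ, 0 < r0 ∧ 1 ≤ R0 ∧ 1 ≤ C ∧ ∀ β : Bo, β.η ≤ ε / 4 →
      ∀ (v : EE n → ℝ) (ρm : ℝ) (p : EE n), Sol v → 0 < ρm → τ ≤ tt v p →
        ∃ (y0 : EE n) (R : ℝ), 0 ≤ R ∧ psi v p ≤ C * Real.exp (-((√2 - ε) * R)) ∧ |dd v p| ≤ R ∧
          ∀ y ∈ ball y0 r0, ‖p - y‖ ≤ R + 1 ∧ |dd v y| ≤ 1 ∧ (R0 ≤ R → 1 / 2 ≤ NN v y →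
            min (rt β v ρm y) (rt β (ng v) ρm y) ≤ (1 + 3 * ε) * R) := by
  obtain ⟨r0, R0, h0, h1, h⟩ := Bd.side hn hε hε1 hτ
  obtain ⟨C, hC1, hC⟩ := Bd.psi_decay n (a := √2 - ε) (by linarith [Real.one_lt_sqrt_two])
    (by linarith)
  refine ⟨r0, R0, C, h0, h1, hC1, fun β hβ v ρm p hv hρ ht => ?_⟩
  rcases le_total 0 (v p) with hp | hp
  · obtain ⟨y0, R, a0, a1, a2, a3⟩ := h β hβ v ρm p hv hρ hp ht
    exact ⟨y0, R, a0, hC v hv p R a1, a2, fun y hy => ⟨(a3 y hy).1, (a3 y hy).2.1,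
      fun b1 b2 => (min_le_left _ _).trans ((a3 y hy).2.2 b1 b2).2⟩⟩
  · obtain ⟨y0, R, a0, a1, a2, a3⟩ := h β hβ (ng v) ρm p (sol_ng hv) hρ (neg_nonneg.2 hp)
      (by rwa [tt_ng hv])
    simp only [dd_ng hv, abs_neg, NN_ng hv] at a2 a3
    exact ⟨y0, R, a0, psi_ng v p ▸ hC _ (sol_ng hv) p R a1, a2, fun y hy => ⟨(a3 y hy).1,
      (a3 y hy).2.1, fun b1 b2 => (min_le_right _ _).trans ((a3 y hy).2.2 b1 b2).2⟩⟩

set_option maxHeartbeats 800000 in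
/-- **BAD** -/
theorem M.bad_of (hn : 2 ≤ n) (x0 : X0Stmt n) : BadStmt n := by
  intro l b hb hl hg
  have r2 := sqrt2_pos
  obtain ⟨ε, ⟨⟨g1, g2⟩, hε1⟩, hε⟩ := ((((St.ev_small
    (f := fun ε => 2 * √2 + 3 * ε - 2 * ((√2 - ε) * (1 + b))) (ρ := 0) (by fun_prop)
      (by nlinarith)).and
    (St.ev_small (f := fun ε => 2 * √2 + 2 * l * (1 + 3 * ε) + 4 * ε - 5 / 2 * ((√2 - ε) * (1 + b)))
      (ρ := 0) (by fun_prop) (by nlinarith))).and
    (St.ev_small (f := fun ε => ε) (by fun_prop) one_pos)).and self_mem_nhdsWithin).exists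
  replace hε : 0 < ε := hε
  refine ⟨ε / 4, by positivity, fun β hβ K lam κ0 e0 e _ _ he0 he => ?_⟩
  obtain ⟨r0, R0, C, h0, h1, hC1, hB⟩ := Bd.both hn hε hε1.le he0
  obtain ⟨A, hA0, hA⟩ := charge n h0
  obtain ⟨Q, hQ0, hQ⟩ := hk_q_rate n (a := √2 + ε) (by linarith)
  obtain ⟨P, hP1, hP⟩ := Bd.poly_le (2 * K + (n + 1 : ℕ)) hε
  obtain ⟨Cf, hCf1, hCf⟩ := fl_cmp n
  obtain ⟨k0, hk0, hk⟩ := flatU n
  obtain ⟨T, T0, hT⟩ : ∃ T : ℝ, 0 < T ∧ ∀ v : EE n → ℝ, Sol v → ∀ (p y : EE n) (R : ℝ),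
      e0 ≤ tt v p → |dd v p| ≤ R → ‖p - y‖ ≤ R + 1 →
        1 ≤ T * Real.exp ((2 * √2 + ε) * R) * tt v y := by
    refine ⟨(Q + 1) * Real.exp (√2 + ε) / e0, by positivity, fun v hv p y R a1 a2 a3 => ?_⟩
    have b1 : Real.exp (-(√2 * R)) ≤ psi v p := by
      rw [psi_eq_Psi hv]
      exact (Real.exp_le_exp.2 (neg_le_neg (mul_le_mul_of_nonneg_left a2 r2.le))).trans
        (exp_le_Psi _)
    have b2 : Real.exp (-(√2 * R)) * e0 ≤
        (Q + 1) * Real.exp ((√2 + ε) * (R + 1)) * (1 * tt v y) :=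
      calc _ ≤ psi v p * tt v p := mul_le_mul b1 a1 he0.le (hv.psi_pos p).le
        _ ≤ Q * Real.exp ((√2 + ε) * dist p y) * (psi v y * tt v y) := hQ v hv p y
        _ ≤ _ := by
          have := hv.tt_nonneg y
          have := hv.psi_pos y
          have := psi_le_one v y
          rw [dist_eq_norm]
          gcongr
          linarith
    rw [Real.exp_neg, inv_mul_le_iff₀ (Real.exp_pos _)] at b2
    have e1 : Real.exp (√2 * R) * Real.exp ((√2 + ε) * (R + 1)) =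
        Real.exp (√2 + ε) * Real.exp ((2 * √2 + ε) * R) := by
      simp only [← Real.exp_add]; congr 1; ring
    rw [div_mul_eq_mul_div, div_mul_eq_mul_div, le_div_iff₀ he0]
    linarith [show Real.exp (√2 * R) * ((Q + 1) * Real.exp ((√2 + ε) * (R + 1)) * (1 * tt v y)) =
      (Q + 1) * Real.exp (√2 + ε) * Real.exp ((2 * √2 + ε) * R) * tt v y by
        linear_combination (Q + 1) * tt v y * e1]
  have hB0 : 0 < (K ^ 2 + 1) * P * Real.exp ε * T := by positivity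
  obtain ⟨fs, hfs⟩ := eventually_atTop.1 (Bd.num (K := K) hl hε hε1.le
    (Real.one_le_rpow hC1 (show 0 ≤ 1 + b by linarith))
    (σ := e / A / ((K ^ 2 + 1) * P * Real.exp ε * T)) (by positivity) (sub_neg.1 g1).le
    (sub_neg.1 g2).le)
  refine ((big_bas (fl n) x0 K lam κ0 β).and (big_num n K lam κ0 β
    (max fs (max (1 / k0) (Cf * (T * Real.exp ((2 * √2 + ε) * R0))))))).mono ?_
  rintro D ⟨B, rfl, -, hM, hf, C1, rs, -, -, O⟩ z1 z2
  have hv := B.sol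
  simp only [max_le_iff] at hM hf
  have M0 : 0 < D.M := one_pos.trans_le B.M1
  have mg : Measurable fun x => tt D.v x * D.Z x ^ 2 * D.W x ^ 2 :=
    (hv.continuous_tt.measurable.mul ((O.meas_Z B).pow_const 2)).mul
      (O.Wcd.continuous.measurable.pow_const 2)
  refine (hA _ {x | |dd D.v x| ≤ 1} _ (fun x => e / A * (tt D.v x * D.Z x ^ 2 * D.W x ^ 2))
    (isClosed_le hv.dd_diff.continuous.abs continuous_const).measurableSet (mg.const_mul _)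
    fun p hp => ?_).trans (le_of_eq ?_)
  swap
  · simp only [ENNReal.ofReal_mul (div_pos he hA0).le]
    rw [lintegral_const_mul _ mg.ennreal_ofReal, ← mul_assoc, ← ENNReal.ofReal_mul hA0.le,
      mul_div_cancel₀ _ hA0.ne']
  obtain ⟨y0, R, a0, a1, a2, a3⟩ := hB D.β hβ D.v D.ρm p hv
    ((pow_pos (one_pos.trans_le O.f1) 2).trans_le O.rm) hp
  refine ⟨y0, fun y hy => ⟨(a3 y hy).2.1, ?_⟩⟩
  obtain ⟨b1, -, b3⟩ := a3 y hy
  have b4 := hT D.v hv p y R hp a2 b1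
  have t0 := hv.tt_nonneg y
  obtain ⟨r, c1, c2, c3⟩ : ∃ r, 1 ≤ r ∧ r ≤ 1 + (1 + 3 * ε) * R ∧ D.ζ (D.h r) ≤ D.Z y := by
    by_cases hy : y ∈ D.Om
    swap
    · exact ⟨1, le_rfl, le_add_of_nonneg_right (by positivity),
        (O.zbd _ (O.h_pos one_pos)).2.trans_eq (if_neg hy).symm⟩
    have d1 : ph0 D.v y < 1 / D.M := hy.1
    have d2 : R0 ≤ R := le_of_not_ge fun h => by
      have e1 : 1 ≤ T * Real.exp ((2 * √2 + ε) * R0) * (Cf * ph0 D.v y) :=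
        b4.trans (by have := (hCf _ hv O.pos.stab y y).2.1; gcongr)
      rw [lt_div_iff₀ M0] at d1
      linarith [mul_le_mul_of_nonneg_left hM.2.2 (B.ph y).le]
    have d3 := b3 d2 (hk _ hv O.pos.stab y (d1.le.trans ((one_div_le M0 hk0).2 hM.2.1)))
    have d4 : 0 < min (D.rp y) (D.rm y) := lt_min (by linarith [B.rp8 hy]) (by linarith [B.rm8 hy])
    refine ⟨(1 + 3 * ε) * R, by linarith [mul_nonneg hε.le a0], by linarith, ?_⟩
    rw [O.Z_eq B hy]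
    exact O.zmono (O.h_pos (d4.trans_le d3)).le (O.U_pos B hy).le
      ((O.h_anti d4 d3).trans (O.hmin_le_U B hy))
  have c4 := hfs D.f0 hf.1 D.Z0 (D.ζ (D.h r)) r R (pb b D.v p) O.Z0_pos.le a0 c1 c2 (pb_pos hv b p)
    ((Real.rpow_le_rpow (hv.psi_pos p).le a1 (by linarith)).trans_eq (by
      rw [Real.mul_rpow (by linarith) (Real.exp_pos _).le, ← Real.exp_mul]; congr 2; ring))
    (z1 r c1) (z2 r c1)
  have c5 : D.W p ^ 2 * (1 + ‖p - y‖) ^ (n + 1) ≤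
      (K ^ 2 + 1) * (P * (Real.exp ε * Real.exp (ε * R))) * D.W y ^ 2 := by
    have s0 : 0 < 1 + ‖p - y‖ := by positivity
    have d1 := pow_le_pow_left₀ (O.Wpos p).le (O.Wcmp p y) 2
    have d2 := hP _ (norm_nonneg (p - y))
    rw [Real.rpow_add s0, Real.rpow_natCast, mul_comm 2 K, Real.rpow_mul s0.le, Real.rpow_two] at d2
    have d3 : Real.exp (ε * ‖p - y‖) ≤ Real.exp ε * Real.exp (ε * R) := by
      rw [← Real.exp_add, Real.exp_le_exp]; linarith [mul_le_mul_of_nonneg_left b1 hε.le]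
    calc _ ≤ (K * (1 + ‖p - y‖) ^ K * D.W y) ^ 2 * (1 + ‖p - y‖) ^ (n + 1) := by gcongr
      _ = K ^ 2 * (((1 + ‖p - y‖) ^ K) ^ 2 * (1 + ‖p - y‖) ^ (n + 1)) * D.W y ^ 2 := by ring
      _ ≤ _ := by
        have := d2.trans (mul_le_mul_of_nonneg_left d3 (by linarith))
        gcongr
        linarith
  have c6 : D.ζ (D.h r) ^ 2 ≤ D.Z y ^ 2 :=
    pow_le_pow_left₀ (O.zbd _ (O.h_pos (by linarith))).1.le c3 2
  have c7 : 0 ≤ D.Z0 ^ 2 * D.f0 ^ 3 * D.F (pb b D.v p) := by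
    have := pb_pos hv b p
    have := O.f1
    unfold Dat.F
    positivity
  have e1 : Real.exp ((2 * √2 + 2 * ε) * R) = Real.exp (ε * R) * Real.exp ((2 * √2 + ε) * R) := by
    rw [← Real.exp_add]; congr 1; ring
  calc _ = D.Z0 ^ 2 * D.f0 ^ 3 * D.F (pb b D.v p) * (D.W p ^ 2 * (1 + ‖p - y‖) ^ (n + 1)) * 1 := by
        ring
    _ ≤ D.Z0 ^ 2 * D.f0 ^ 3 * D.F (pb b D.v p) *
        ((K ^ 2 + 1) * (P * (Real.exp ε * Real.exp (ε * R))) * D.W y ^ 2) *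
        (T * Real.exp ((2 * √2 + ε) * R) * tt D.v y) := by gcongr
    _ = D.Z0 ^ 2 * D.f0 ^ 3 * D.F (pb b D.v p) * Real.exp ((2 * √2 + 2 * ε) * R) *
        ((K ^ 2 + 1) * P * Real.exp ε * T * (tt D.v y * D.W y ^ 2)) := by rw [e1]; ring
    _ ≤ e / A / ((K ^ 2 + 1) * P * Real.exp ε * T) * D.Z y ^ 2 *
        ((K ^ 2 + 1) * P * Real.exp ε * T * (tt D.v y * D.W y ^ 2)) :=
        mul_le_mul_of_nonneg_right (c4.trans (mul_le_mul_of_nonneg_left c6 (by positivity)))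
          (by positivity)
    _ = _ := by field_simp

end

end Crest.Agent.N067
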