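import Crest.Agent.N067.A.Ker6
import Crest.Agent.N067.A.Dual
import Crest.Agent.N067.A.Ball
import Crest.Agent.N067.Y.Base

/-!
# Row 67, BAD (helper16): no ridge well inside a zero-free ball
-/

set_option autoImplicit false

open MeasureTheory Laplacian InnerProductSpace Topology Filter Set Metric
open scoped RealInnerProductSpace Gradient ContDiff

namespace Crest.Agent.N067.Bd

open Crest.Agent.R077 Crest.Agent.N067.Ker Crest.Agent.N067.Y

noncomputable section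

variable {n : ℕ} {v : EE n → ℝ}

theorem psi_decay (n : ℕ) {a : ℝ} (ha0 : 0 ≤ a) (ha : a < √2) : ∃ C : ℝ, 1 ≤ C ∧
    ∀ v : EE n → ℝ, Sol v → ∀ (x : EE n) (R : ℝ), (∀ y ∈ ball x R, 0 < v y) →
      psi v x ≤ C * Real.exp (-(a * R)) := by
  obtain ⟨C, hC⟩ := decay n a ha0 ha
  refine ⟨max 1 (2 * C), le_max_left _ _, fun v hv x R h => ?_⟩
  have h1 := hC v hv.isSol x R h
  have h2 := abs_lt.1 (hv.lt x)
  rw [neg_mul] at h1
  have h3 := mul_le_mul_of_nonneg_right (le_max_right 1 (2 * C)) (Real.exp_pos (-(a * R))).le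
  unfold psi
  nlinarith

/-- the directional derivative of `ψ` against `ψ` -/
theorem cone_int (hn : 2 ≤ n) {a : ℝ} (ha0 : 0 ≤ a) (ha : a ^ 2 < 2) : ∃ I : ℝ, 0 ≤ I ∧
    ∀ (v : EE n → ℝ) (p e : EE n) (κ E : ℝ), Sol v → ‖e‖ = 1 → 0 ≤ κ → κ ≤ 1 → 0 ≤ E →
      (∀ z, -⟪z, e⟫ ≤ (1 - κ) * ‖z‖ → psi v (p + z) ^ 2 ≤ E * Real.exp (a * ‖z‖)) →
      √2 * psi v p * (1 - κ - ‖∇ (dd v) p‖) ≤ E * I := by
  have i1 := (integrable_Gk_exp (n := n) two_pos ha).const_mul √2
  have i2 := integrable_G1_exp (n := n) two_pos ha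
  refine ⟨3 * ∫ z : EE n, (√2 * (Gk 2 z * Real.exp (a * ‖z‖)) +
    G1 2 z * ‖z‖ * Real.exp (a * ‖z‖)), mul_nonneg (by norm_num) (integral_nonneg fun z => ?_),
    fun v p e κ E hv he k0 k1 hE h => ?_⟩
  · have := Gk_nonneg 2 z
    have := G1_nonneg 2 z
    positivity
  set S : EE n → ℝ := fun y => psi v y ^ 2 * (3 - tt v y) with hS
  have S0 : ∀ y, 0 ≤ S y := fun y => mul_nonneg (sq_nonneg _) (by linarith [tt_le_one v y])
  have S1 : ∀ y, S y ≤ 3 * psi v y ^ 2 := fun y => by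
    simp only [hS]; nlinarith [hv.tt_nonneg y, sq_nonneg (psi v y)]
  have S2 : ∀ y, |S y| ≤ 3 := fun y => by
    rw [abs_of_nonneg (S0 y)]
    linarith [S1 y, pow_le_one₀ (n := 2) (hv.psi_pos y).le (psi_le_one v y)]
  have cS : Continuous S := (hv.psi_sm.continuous.pow 2).mul (continuous_const.sub hv.continuous_tt)
  have mS : AEStronglyMeasurable (fun z => S (p + z)) volume :=
    (cS.comp (continuous_const.add continuous_id)).aestronglyMeasurable
  have e1 : psi v p = ∫ z, Gk 2 z * S (p + z) := congrFun (psi_eq_res hv) p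
  have i3 : Integrable fun z => Gk 2 z * S (p + z) :=
    integrable_Gk_mul two_pos (by norm_num) mS (gr_of_bdd fun z => S2 _)
  have i4 := integrable_G1_smul two_pos mS fun z => S2 (p + z)
  have e2 : fderiv ℝ (psi v) p e = ∫ z, G1 2 z * S (p + z) * ⟪z, e⟫ := by
    have h1 := hasFDerivAt_res two_pos cS.aestronglyMeasurable S2 p
    rw [← psi_eq_res hv] at h1
    rw [h1.fderiv, resD, ContinuousLinearMap.integral_apply i4]
    simp
  have i5 : Integrable fun z => G1 2 z * S (p + z) * ⟪z, e⟫ := by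
    simpa using i4.apply_continuousLinearMap e
  have e3 : fderiv ℝ (psi v) p e = -√2 * v p * psi v p * ⟪∇ (dd v) p, e⟫ := by
    rw [inner_grad, fderiv_eq_sum', fderiv_eq_sum', Finset.mul_sum]
    exact Finset.sum_congr rfl fun i _ => by rw [hv.pdv_psi]; ring
  have key : ∫ z, (√2 * (1 - κ) * (Gk 2 z * S (p + z)) + G1 2 z * S (p + z) * ⟪z, e⟫) ≤
      ∫ z : EE n, 3 * E * (√2 * (Gk 2 z * Real.exp (a * ‖z‖)) +
        G1 2 z * ‖z‖ * Real.exp (a * ‖z‖)) := by
    refine integral_mono_ae ((i3.const_mul _).add i5) ((i1.add i2).const_mul _) ?_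
    have : Nontrivial (EE n) := by
      have : Nonempty (Fin n) := ⟨⟨0, by omega⟩⟩
      infer_instance
    filter_upwards [compl_mem_ae_iff.2 (measure_singleton (0 : EE n))] with z hz
    have g0 := Gk_nonneg 2 z
    have g1 := G1_nonneg 2 z
    have g2 := G1_lower hn two_pos hz
    have s0 := S0 (p + z)
    rcases le_total (-⟪z, e⟫) ((1 - κ) * ‖z‖) with h1 | h1
    · have b1 : S (p + z) ≤ 3 * (E * Real.exp (a * ‖z‖)) := by linarith [S1 (p + z), h z h1]
      have b2 : ⟪z, e⟫ ≤ ‖z‖ := by simpa [he] using real_inner_le_norm z e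
      have b3 := mul_le_mul_of_nonneg_left b2 (mul_nonneg g1 s0)
      have b4 := mul_le_mul_of_nonneg_left b1
        (show 0 ≤ √2 * Gk 2 z + G1 2 z * ‖z‖ by positivity)
      have b5 : 0 ≤ √2 * κ * (Gk 2 z * S (p + z)) := by positivity
      linarith
    · have b1 := mul_le_mul_of_nonneg_left h1 (mul_nonneg g1 s0)
      have b2 := mul_le_mul_of_nonneg_left g2 (mul_nonneg (sub_nonneg.2 k1) s0)
      have b3 : 0 ≤ 3 * E * (√2 * (Gk 2 z * Real.exp (a * ‖z‖)) +
        G1 2 z * ‖z‖ * Real.exp (a * ‖z‖)) := by positivity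
      linarith
  rw [integral_add (i3.const_mul _) i5, integral_const_mul, integral_const_mul, ← e1, ← e2,
    e3] at key
  have b1 : |v p * ⟪∇ (dd v) p, e⟫| ≤ 1 * ‖∇ (dd v) p‖ := by
    rw [abs_mul]
    exact mul_le_mul (hv.lt p).le (by simpa [he] using abs_real_inner_le_norm (∇ (dd v) p) e)
      (abs_nonneg _) zero_le_one
  have b2 := mul_le_mul_of_nonneg_left ((le_abs_self _).trans b1)
    (mul_pos sqrt2_pos (hv.psi_pos p)).le
  linarith

theorem cone_geo {z e : EE n} (he : ‖e‖ = 1) {κ m : ℝ} (k0 : 0 ≤ κ) (k1 : κ ≤ 1) (hm : 0 ≤ m)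
    (h : -⟪z, e⟫ ≤ (1 - κ) * ‖z‖) (hz : m ≤ 2 * ‖z‖) : ‖z - m • e‖ ≤ ‖z‖ + m - m * κ / 3 := by
  have h0 := norm_nonneg z
  have h1 : m * κ ≤ m := mul_le_of_le_one_right hm k1
  refine abs_le_of_sq_le_sq' ?_ (by linarith) |>.2
  rw [norm_sub_sq_real, inner_smul_right, norm_smul, he, mul_one, Real.norm_eq_abs, sq_abs]
  nlinarith [mul_le_mul_of_nonneg_left h hm, mul_le_mul_of_nonneg_left hz (mul_nonneg hm k0),
    sq_nonneg (m * κ)]

/-- **DEEP** -/
theorem deep (hn : 2 ≤ n) {ε τ : ℝ} (hε : 0 < ε) (hε1 : ε ≤ 1) (hτ : 0 < τ) :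
    ∃ θ R0 : ℝ, 0 < θ ∧ θ ≤ 1 ∧ ∀ (v : EE n → ℝ) (p e : EE n) (R : ℝ), Sol v → ‖e‖ = 1 → R0 ≤ R →
      (∀ z ∈ ball (p + (ε * R) • e) ((1 + ε - θ) * R), 0 < v z) → |dd v p| ≤ R → tt v p < τ := by
  obtain ⟨κ, k0, k1, k2⟩ : ∃ κ : ℝ, 0 < κ ∧ κ ≤ 1 / 4 ∧ 4 * κ ≤ τ :=
    ⟨min (1 / 4) (τ / 4), by positivity, min_le_left _ _,
      by linarith [min_le_right (1 / 4) (τ / 4)]⟩
  obtain ⟨σ, hσ⟩ : ∃ σ, σ = ε * κ / 12 := ⟨_, rfl⟩
  have s0 : 0 < σ := by rw [hσ]; positivity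
  have s1 : σ ≤ 1 / 10 := by nlinarith
  have r2 := sqrt2_pos
  obtain ⟨a, ha⟩ : ∃ a, a * (1 + 3 * σ) = √2 * (1 + σ) :=
    ⟨√2 * (1 + σ) / (1 + 3 * σ), by field_simp⟩
  have a0 : 0 < a := by by_contra h; nlinarith [not_lt.1 h]
  have a1 : a < √2 := by by_contra h; nlinarith [not_lt.1 h]
  obtain ⟨C, hC1, hC⟩ := psi_decay n a0.le a1
  obtain ⟨I, hI0, hI⟩ := cone_int hn a0.le (by nlinarith [sqrt2_sq])
  have h2 : Tendsto (fun R : ℝ => Real.exp (-(√2 * σ * R)) * (C ^ 2 * I)) atTop (𝓝 0) := by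
    simpa using (Real.tendsto_exp_neg_atTop_nhds_zero.comp
      (tendsto_id.const_mul_atTop (mul_pos r2 s0))).mul_const (C ^ 2 * I)
  obtain ⟨R0, hR0⟩ := eventually_atTop.1
    ((h2.eventually_lt_const (mul_pos r2 k0)).and (eventually_ge_atTop 0))
  refine ⟨σ, R0, s0, by linarith, fun v p e R hv he hR h hd => ?_⟩
  obtain ⟨b1, b0⟩ := hR0 R hR
  have key := hI v p e κ (C ^ 2 * Real.exp (-(√2 * (1 + σ) * R))) hv he k0.le (by linarith)
    (by positivity) fun z hz => by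
      have c1 := hC v hv (p + z) ((1 + ε - σ) * R - ‖z - (ε * R) • e‖) fun y hy => h y (by
        rw [mem_ball_iff_norm] at hy ⊢
        have := norm_add_le (y - (p + z)) (z - (ε * R) • e)
        rw [show y - (p + z) + (z - (ε * R) • e) = y - (p + (ε * R) • e) by abel] at this
        linarith)
      have c0 := (hv.psi_pos (p + z)).le
      have z0 := norm_nonneg z
      rw [mul_assoc, ← Real.exp_add]
      rcases le_total R (2 * ‖z‖) with h1 | h1
      · have c2 := cone_geo he k0.le (by linarith) (mul_nonneg hε.le b0) hz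
          ((mul_le_of_le_one_left b0 hε1).trans h1)
        have c3 : psi v (p + z) ^ 2 ≤ psi v (p + z) := by nlinarith [psi_le_one v (p + z)]
        refine c3.trans (c1.trans (mul_le_mul (by nlinarith) (Real.exp_le_exp.2 ?_)
          (Real.exp_pos _).le (by positivity)))
        have c4 := mul_le_mul_of_nonneg_left (show (1 + 3 * σ) * R - ‖z‖ ≤
          (1 + ε - σ) * R - ‖z - (ε * R) • e‖ by rw [hσ]; linarith) a0.le
        have c5 : a * ((1 + 3 * σ) * R) = √2 * (1 + σ) * R := by rw [← ha]; ring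
        linarith
      · have c2 : ‖z - (ε * R) • e‖ ≤ ‖z‖ + ε * R := by
          simpa [norm_smul, he, abs_of_nonneg hε.le, abs_of_nonneg b0] using
            norm_sub_le z ((ε * R) • e)
        refine (pow_le_pow_left₀ c0 c1 2).trans ?_
        rw [mul_pow, ← Real.exp_nat_mul]
        refine mul_le_mul_of_nonneg_left (Real.exp_le_exp.2 ?_) (by positivity)
        have c3 := mul_le_mul_of_nonneg_right s1 b0
        have c4 := mul_le_mul_of_nonneg_left (show (1 + 3 * σ) * R - ‖z‖ ≤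
          2 * ((1 + ε - σ) * R - ‖z - (ε * R) • e‖) by linarith) a0.le
        have c5 : a * ((1 + 3 * σ) * R) = √2 * (1 + σ) * R := by rw [← ha]; ring
        push_cast
        linarith
  have d1 : Real.exp (-(√2 * R)) ≤ psi v p := by
    rw [psi_eq_Psi hv]
    exact (Real.exp_le_exp.2 (neg_le_neg (mul_le_mul_of_nonneg_left hd r2.le))).trans
      (exp_le_Psi _)
  have d2 : 1 - 2 * κ < ‖∇ (dd v) p‖ := by
    by_contra h3
    have d3 : √2 * Real.exp (-(√2 * R)) * κ ≤ √2 * psi v p * (1 - κ - ‖∇ (dd v) p‖) :=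
      mul_le_mul (by gcongr) (by linarith [not_lt.1 h3]) k0.le (mul_pos r2 (hv.psi_pos p)).le
    have d4 : Real.exp (-(√2 * (1 + σ) * R)) =
        Real.exp (-(√2 * R)) * Real.exp (-(√2 * σ * R)) := by
      rw [← Real.exp_add]; congr 1; ring
    rw [d4] at key
    nlinarith [mul_lt_mul_of_pos_left b1 (Real.exp_pos (-(√2 * R)))]
  unfold tt
  nlinarith

end

end Crest.Agent.N067.Bd
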