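import Crest.Agent.N067.B.Deep
import Crest.Agent.N067.Y.StG
import Crest.Agent.N067.M.Wedge0
import Crest.Agent.N067.M.FlatU
import Crest.Agent.N067.A.Gib

/-!
# Row 67, BAD (helper16): the patch on the band below a ridge point
-/

set_option autoImplicit false

open MeasureTheory Laplacian InnerProductSpace Topology Filter Set Metric
open scoped RealInnerProductSpace Gradient ContDiff

namespace Crest.Agent.N067.Bd

open Crest.Agent.R077 Crest.Agent.N067.Y Crest.Agent.N067.M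

noncomputable section

variable {n : ℕ} {v : EE n → ℝ}

theorem dd_zero {y : EE n} (h : v y = 0) : dd v y = 0 := by simp [dd, h]

theorem pos_of_dd (hv : Sol v) {y : EE n} (h : 0 < dd v y) : 0 < v y := by
  by_contra h1
  rcases (not_lt.1 h1).eq_or_lt with h2 | h2
  · exact h.ne' (dd_zero h2)
  · exact h.not_gt (hv.dd_lt_zero h2)

theorem nonneg_of_ball (hv : Sol v) {p : EE n} {R : ℝ} (hR : 0 < R) (h : ∀ z ∈ ball p R, 0 < v z) :
    ∀ z ∈ closedBall p R, 0 ≤ dd v z := by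
  rw [← closure_ball p hR.ne']
  exact fun z hz => closure_minimal (fun z hz => (hv.dd_pos (h z hz)).le)
    (isClosed_le continuous_const hv.dd_diff.continuous) hz

/-- a nearest zero -/
theorem near (hv : Sol v) {p : EE n} (hp : 0 ≤ v p) :
    ∃ y, dd v y = 0 ∧ ∀ z ∈ ball p ‖p - y‖, 0 < v z := by
  have hne : {z | v z ≤ 0}.Nonempty := by
    by_contra h
    obtain ⟨C, -, hC⟩ := psi_decay n zero_le_one Real.one_lt_sqrt_two
    have h1 : Tendsto (fun R : ℝ => C * Real.exp (-R)) atTop (𝓝 0) := by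
      simpa using Real.tendsto_exp_neg_atTop_nhds_zero.const_mul C
    refine (hv.psi_pos p).not_ge (ge_of_tendsto' h1 fun R => ?_)
    simpa using hC v hv p R fun y _ => not_le.1 fun hy => h ⟨y, hy⟩
  obtain ⟨y, hy, e⟩ := (isClosed_le hv.diff.continuous continuous_const).exists_infDist_eq_dist hne p
  rw [dist_eq_norm] at e
  have h1 : ∀ z ∈ ball p ‖p - y‖, 0 < v z := fun z hz =>
    not_le.1 (notMem_of_dist_lt_infDist (s := {z | v z ≤ 0}) (by rw [e, dist_comm]; exact hz))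
  refine ⟨y, ?_, h1⟩
  rcases (norm_nonneg (p - y)).eq_or_lt with h | h
  · obtain rfl : p = y := sub_eq_zero.1 (norm_eq_zero.1 h.symm)
    exact dd_zero (le_antisymm hy hp)
  · refine le_antisymm (not_lt.1 fun h2 => (pos_of_dd hv h2).not_ge hy)
      (nonneg_of_ball hv h h1 y ?_)
    rw [mem_closedBall_iff_norm']

/-- the gradient at a nearest zero points to the centre -/
theorem par (hv : Sol v) {y e : EE n} {R : ℝ} (hR : 0 < R) (he : ‖e‖ = 1) (hy : dd v y = 0)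
    (h : ∀ z ∈ ball (y + R • e) R, 0 < v z) : nn v y = NN v y • e := by
  have hm : IsLocalMinOn (dd v) (closedBall (y + R • e) R) y :=
    IsMinOn.localize fun z hz => hy.trans_le (nonneg_of_ball hv hR h z hz)
  have h0 : y ∈ closedBall (y + R • e) R := by simp [norm_smul, he, hR.le, abs_of_pos hR]
  rcases (NN_nonneg v y).eq_or_lt with h1 | h1
  · rw [← h1, zero_smul]; exact norm_eq_zero.1 h1.symm
  have h2 : y + R • e - R • nu v y ∈ closedBall (y + R • e) R := by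
    simp [norm_smul, Wd.norm_nu h1, abs_of_pos hR]
  have h3 := hm.hasFDerivWithinAt_nonneg (hv.dd_diff y).hasFDerivAt.hasFDerivWithinAt
    (sub_mem_posTangentConeAt_of_segment_subset ((convex_closedBall _ _).segment_subset h0 h2))
  rw [← inner_grad, show y + R • e - R • nu v y - y = R • (e - nu v y) by module,
    inner_smul_right, inner_sub_right, nu, inner_smul_right] at h3
  change 0 ≤ R * (⟪nn v y, e⟫ - (NN v y)⁻¹ * ⟪nn v y, nn v y⟫) at h3
  rw [real_inner_self_eq_norm_sq] at h3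
  change 0 ≤ R * (_ - (NN v y)⁻¹ * NN v y ^ 2) at h3
  rw [sq, inv_mul_cancel_left₀ h1.ne'] at h3
  have h4 := nonneg_of_mul_nonneg_right h3 hR
  rw [← sub_eq_zero, ← norm_eq_zero, ← sq_eq_zero_iff]
  refine le_antisymm ?_ (sq_nonneg _)
  rw [norm_sub_sq_real, inner_smul_right, norm_smul, he, mul_one, Real.norm_eq_abs, sq_abs]
  change NN v y ^ 2 - _ + _ ≤ 0
  nlinarith

theorem nu_near {y y' e : EE n} {μ : ℝ} (he : ‖e‖ = 1) (h : nn v y = NN v y • e)
    (h1 : ‖nn v y' - nn v y‖ ≤ μ) (h2 : 1 / 2 ≤ NN v y') : ‖nu v y' - e‖ ≤ 4 * μ := by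
  have h3 : |NN v y - NN v y'| ≤ μ := by
    rw [abs_sub_comm]; exact (abs_norm_sub_norm_le _ _).trans h1
  have h0 : 0 < NN v y' := by linarith
  have e1 : NN v y' • (nu v y' - e) = nn v y' - nn v y + (NN v y - NN v y') • e := by
    rw [smul_sub, nu, smul_inv_smul₀ h0.ne', h]; module
  have h4 := norm_add_le (nn v y' - nn v y) ((NN v y - NN v y') • e)
  rw [← e1, norm_smul, norm_smul, he, Real.norm_eq_abs, Real.norm_eq_abs, abs_of_pos h0] at h4
  nlinarith [norm_nonneg (nu v y' - e)]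

/-- `Fit` at a point with `d > 0` gives a zero-free tangent ball -/
theorem ball_of_fit (hv : Sol v) {β : Bo} {y : EE n} {r s : ℝ} (hN : 0 < NN v y) (hd : 0 < dd v y)
    (hf : Fit β v y r) (hs0 : 0 ≤ s) (hs : s ≤ (1 - β.η) * r - dd v y) :
    ∀ z ∈ closedBall (y + s • nu v y) s, 0 < v z := fun z hz => by
  have hν := Wd.norm_nu hN
  have η0 := β.η0
  have η1 := β.η1
  have hr : 0 < r := by by_contra h; nlinarith [not_lt.1 h]
  have hw : -β.η • nu v y ∈ Core β (nu v y) := by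
    constructor
    · simp [norm_smul, hν, abs_of_pos η0]
    · rw [← add_smul, norm_smul, hν, Real.norm_eq_abs, abs_of_pos (by linarith)]
      linarith [β.h1]
  refine pos_of_dd hv (lt_of_lt_of_le ?_ (hf _ hw z))
  have h1 : ‖z - cen v y r (-β.η • nu v y)‖ ≤ (1 - β.η) * r - dd v y := by
    rw [show z - cen v y r (-β.η • nu v y) = z - (y + s • nu v y) -
      ((1 - β.η) * r - dd v y - s) • nu v y by rw [cen]; module]
    refine (norm_sub_le _ _).trans ?_
    rw [norm_smul, hν, Real.norm_eq_abs, abs_of_nonneg (by linarith)]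
    linarith [mem_closedBall_iff_norm.1 hz]
  have hL : 0 < r - dd v y := by nlinarith
  have h2 := Wd.gp_anti hN.le hL (by positivity)
    (show ‖z - cen v y r (-β.η • nu v y)‖ + β.η * r ≤ r - dd v y by linarith)
  rw [show gp (NN v y) (r - dd v y) (r - dd v y) = 0 by simp [gp]] at h2
  unfold PP
  linarith

theorem rt_pos {β : Bo} {ρm : ℝ} {y : EE n} (hρ : 0 < ρm) (hd : dd v y ≠ 0) : 0 < rt β v ρm y :=
  (lt_min (abs_pos.2 hd) hρ).trans_le (le_csInf ⟨ρm, Or.inr rfl⟩ fun _ hr => hr.elim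
    (fun h => (min_le_left _ _).trans h.1.le) fun h => (min_le_right _ _).trans_eq h.symm)

theorem side (hn : 2 ≤ n) {ε τ : ℝ} (hε : 0 < ε) (hε1 : ε ≤ 1) (hτ : 0 < τ) :
    ∃ r0 R0 : ℝ, 0 < r0 ∧ 1 ≤ R0 ∧ ∀ β : Bo, β.η ≤ ε / 4 → ∀ (v : EE n → ℝ) (ρm : ℝ) (p : EE n),
      Sol v → 0 < ρm → 0 ≤ v p → τ ≤ tt v p → ∃ (y0 : EE n) (R : ℝ), 0 ≤ R ∧
        (∀ z ∈ ball p R, 0 < v z) ∧ |dd v p| ≤ R ∧ ∀ y' ∈ ball y0 r0, ‖p - y'‖ ≤ R + 1 ∧
          |dd v y'| ≤ 1 ∧ (R0 ≤ R → 1 / 2 ≤ NN v y' →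
            0 < rt β v ρm y' ∧ rt β v ρm y' ≤ (1 + 3 * ε) * R) := by
  obtain ⟨θ, R1, θ0, θ1, hD⟩ := deep hn hε hε1 hτ
  obtain ⟨K, hK1, hK⟩ := St.exists_K n
  obtain ⟨r0, r1, r2⟩ : ∃ r0 : ℝ, 0 < r0 ∧ K * (3 * r0) = θ / 16 :=
    ⟨θ / (48 * K), by positivity, by field_simp; norm_num⟩
  have r3 : 3 * r0 ≤ 1 / 16 := by nlinarith
  refine ⟨r0, max (max R1 1) (max (1 / θ) (1 / ε)), r1, le_max_of_le_left (le_max_right _ _),
    fun β hβ v ρm p hv hρ hp ht => ?_⟩
  obtain ⟨y, hy, h⟩ := near hv hp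
  have b1 : |dd v p| ≤ ‖p - y‖ := by simpa [hy] using hv.abs_dd_sub_le p y
  have b2 : ∀ y', ‖y' - y‖ ≤ 1 → ‖p - y'‖ ≤ ‖p - y‖ + 1 ∧ |dd v y'| ≤ 1 := fun y' h1 =>
    ⟨by linarith [norm_sub_le_norm_sub_add_norm_sub p y y', norm_sub_rev y y'],
      by simpa [hy] using (hv.abs_dd_sub_le y' y).trans h1⟩
  by_cases hR : max (max R1 1) (max (1 / θ) (1 / ε)) ≤ ‖p - y‖
  swap
  · refine ⟨y, _, norm_nonneg _, h, b1, fun y' hy' => ?_⟩
    obtain ⟨c1, c2⟩ := b2 y' (by linarith [mem_ball_iff_norm.1 hy'])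
    exact ⟨c1, c2, fun h1 => absurd h1 hR⟩
  simp only [max_le_iff] at hR
  obtain ⟨⟨R2, R3⟩, R4, R5⟩ := hR
  obtain ⟨e, he, e1⟩ : ∃ e : EE n, ‖e‖ = 1 ∧ p = y + ‖p - y‖ • e :=
    ⟨‖p - y‖⁻¹ • (p - y), by rw [norm_smul, norm_inv, norm_norm, inv_mul_cancel₀ (by linarith)],
      by rw [smul_inv_smul₀ (by linarith), add_sub_cancel]⟩
  generalize ‖p - y‖ = R at *
  subst e1
  rw [div_le_iff₀ θ0] at R4
  rw [div_le_iff₀ hε] at R5
  refine ⟨y + (2 * r0) • e, R, by linarith, h, b1, fun y' hy' => ?_⟩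
  rw [mem_ball_iff_norm] at hy'
  have c0 : ∀ s, 2 * r0 ≤ s → ‖y' - (y + s • e)‖ < s - r0 := fun s hs => by
    rw [show y' - (y + s • e) = y' - (y + (2 * r0) • e) - (s - 2 * r0) • e by module]
    refine (norm_sub_le _ _).trans_lt ?_
    rw [norm_smul, he, Real.norm_eq_abs, abs_of_nonneg (by linarith)]
    linarith
  have c1 : ‖y' - y‖ ≤ 3 * r0 := by
    rw [show y' - y = y' - (y + (2 * r0) • e) + (2 * r0) • e by module]
    refine (norm_add_le _ _).trans ?_
    rw [norm_smul, he, Real.norm_eq_abs, abs_of_pos (by linarith)]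
    linarith
  obtain ⟨c2, c3⟩ := b2 y' (by linarith)
  refine ⟨c2, c3, fun _ hN => ?_⟩
  have c4 : 0 < dd v y' :=
    hv.dd_pos (h y' (mem_ball_iff_norm.2 (by linarith [c0 R (by linarith)])))
  have c5 : dd v y' ≤ 3 * r0 := by
    simpa [hy, abs_of_pos c4] using (hv.abs_dd_sub_le y' y).trans c1
  refine ⟨rt_pos hρ c4.ne', Wd.rt_le (by nlinarith) fun hf => ?_⟩
  have c6 : ‖nn v y' - nn v y‖ ≤ θ / 16 :=
    (convex_univ.norm_image_sub_le_of_norm_hasFDerivWithin_le (f' := St.Bm v) (C := K)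
      (fun z _ => (St.hasFDerivAt_grad hv z).hasFDerivWithinAt)
      (fun z _ => (hK v hv z).1.trans (mul_le_of_le_one_right (by linarith) (Ok.sqrt_le z)))
      (mem_univ y) (mem_univ y')).trans (by rw [← r2]; gcongr)
  have c7 := nu_near he (par hv (by linarith) he hy h) c6 hN
  have c8 := ball_of_fit hv (by linarith) c4 hf (s := (1 + ε) * R) (by positivity) (by
    have := β.η0
    nlinarith [mul_le_mul_of_nonneg_right (show 1 + 2 * ε ≤ (1 - β.η) * (1 + 3 * ε) by nlinarith)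
      (show 0 ≤ R by linarith)])
  refine (hD v _ e R hv he R2 (fun z hz => c8 z ?_) b1).not_ge ht
  rw [mem_ball_iff_norm] at hz
  rw [mem_closedBall_iff_norm, show z - (y' + ((1 + ε) * R) • nu v y') =
    z - (y + R • e + (ε * R) • e) - (y' - y) - ((1 + ε) * R) • (nu v y' - e) by module]
  refine (norm_sub_le _ _).trans ((add_le_add_left (norm_sub_le _ _) _).trans ?_)
  rw [norm_smul, Real.norm_eq_abs, abs_of_nonneg (by positivity)]
  have c9 : (1 + ε) * R * ‖nu v y' - e‖ ≤ (1 + 1) * R * (4 * (θ / 16)) := by gcongr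
  linarith

end

end Crest.Agent.N067.Bd
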